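import Mathlib

/-! Derivations of a field of characteristic `p` and the subfield of `p`-th powers. -/

set_option autoImplicit false

namespace Crest.Agent.R9

open Polynomial IntermediateField

variable {L : Type*} [Field L] (p : ℕ) [hp : Fact p.Prime] [CharP L p]

/-- The subfield of `p`-th powers. -/
noncomputable def pw (L : Type*) [Field L] (p : ℕ) [Fact p.Prime] [CharP L p] : Subfield L :=
  (frobenius L p).fieldRange

lemma mem_pw {x : L} : x ∈ pw L p ↔ ∃ y : L, y ^ p = x := by
  simp [pw, RingHom.mem_fieldRange, frobenius_def]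

lemma pow_mem_pw (y : L) : y ^ p ∈ pw L p := (mem_pw p).2 ⟨y, rfl⟩

lemma deriv_pw (D : Derivation ℤ L L) {x : L} (hx : x ∈ pw L p) : D x = 0 := by
  obtain ⟨y, rfl⟩ := (mem_pw p).1 hx
  rw [D.leibniz_pow, nsmul_eq_mul, CharP.cast_eq_zero L p, zero_mul]

/-- The subfield generated by `M` and `X`. -/
noncomputable def gen (M : Subfield L) (X : L) : Subfield L := (M⟮X⟯).toSubfield

lemma self_mem_gen (M : Subfield L) (X : L) : X ∈ gen M X := mem_adjoin_simple_self M X

lemma le_gen (M : Subfield L) (X : L) : M ≤ gen M X := fun x hx =>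
  (M⟮X⟯).algebraMap_mem ⟨x, hx⟩

lemma gen_le {M N : Subfield L} {X : L} (h : M ≤ N) (hX : X ∈ N) : gen M X ≤ N := by
  intro w hw
  change w ∈ M⟮X⟯ at hw
  induction hw using adjoin_induction with
  | mem x hx => rw [Set.mem_singleton_iff.1 hx]; exact hX
  | algebraMap x => exact h x.2
  | add x y _ _ hx hy => exact N.add_mem hx hy
  | inv x _ hx => exact N.inv_mem hx
  | mul x y _ _ hx hy => exact N.mul_mem hx hy

/-- Chain rule. -/
lemma chain (M : Subfield L) (X : L) {w : L} (hw : w ∈ gen M X) :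
    ∃ w' ∈ gen M X, ∀ D : Derivation ℤ L L, (∀ m ∈ M, D m = 0) → D w = w' * D X := by
  change w ∈ M⟮X⟯ at hw
  induction hw using adjoin_induction with
  | mem x hx =>
    rw [Set.mem_singleton_iff.1 hx]
    exact ⟨1, one_mem _, fun D _ => by rw [one_mul]⟩
  | algebraMap x => exact ⟨0, zero_mem _, fun D hD => by rw [zero_mul]; exact hD _ x.2⟩
  | add x y _ _ hx hy =>
    obtain ⟨a, ha, hx⟩ := hx
    obtain ⟨b, hb, hy⟩ := hy
    exact ⟨a + b, add_mem ha hb, fun D hD => by rw [D.map_add, hx D hD, hy D hD, add_mul]⟩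
  | inv x hx' hx =>
    obtain ⟨a, ha, hx⟩ := hx
    refine ⟨-(x⁻¹) ^ 2 * a, mul_mem (neg_mem (pow_mem (inv_mem hx') 2)) ha, fun D hD => ?_⟩
    rw [D.leibniz_inv, hx D hD, smul_eq_mul]; ring
  | mul x y hx' hy' hx hy =>
    obtain ⟨a, ha, hx⟩ := hx
    obtain ⟨b, hb, hy⟩ := hy
    refine ⟨x * b + y * a, add_mem (mul_mem hx' hb) (mul_mem hy' ha), fun D hD => ?_⟩
    rw [D.leibniz, hx D hD, hy D hD, smul_eq_mul, smul_eq_mul]; ring

lemma minpoly_eq {M : Subfield L} (hM : pw L p ≤ M) {X : L} (hX : X ∉ M) :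
    minpoly M X = Polynomial.X ^ p - C (⟨X ^ p, hM (pow_mem_pw p X)⟩ : M) := by
  symm
  apply minpoly.eq_of_irreducible_of_monic
  · apply X_pow_sub_C_irreducible_of_prime hp.out
    intro b hb
    apply hX
    have : (b : L) ^ p = X ^ p := by simpa using congrArg Subtype.val hb
    have h2 : (b : L) = X := frobenius_inj L p (by simpa [frobenius_def] using this)
    rw [← h2]; exact b.2
  · simp only [map_sub, map_pow, aeval_X, aeval_C]
    exact sub_self _
  · exact monic_X_pow_sub_C _ hp.out.ne_zero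

lemma isIntegral_of_pw {M : Subfield L} (hM : pw L p ≤ M) (X : L) : IsIntegral M X := by
  refine ⟨Polynomial.X ^ p - C (⟨X ^ p, hM (pow_mem_pw p X)⟩ : M),
    monic_X_pow_sub_C _ hp.out.ne_zero, ?_⟩
  simp only [eval₂_sub, eval₂_X_pow, eval₂_C]
  exact sub_self _

lemma finrank_gen {M : Subfield L} (hM : pw L p ≤ M) {X : L} (hX : X ∉ M) :
    Module.finrank M M⟮X⟯ = p := by
  rw [adjoin.finrank (isIntegral_of_pw p hM X), minpoly_eq p hM hX, natDegree_X_pow_sub_C]

/-- Exchange property. -/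
lemma exchange {M : Subfield L} (hM : pw L p ≤ M) {X w : L} (hw : w ∈ gen M X) (hwM : w ∉ M) :
    X ∈ gen M w := by
  have hX : X ∉ M := fun h => hwM (gen_le le_rfl h hw)
  have h1 : M⟮w⟯ ≤ M⟮X⟯ := adjoin_simple_le_iff.2 hw
  have : FiniteDimensional M M⟮X⟯ := adjoin.finiteDimensional (isIntegral_of_pw p hM X)
  have h2 : M⟮w⟯ = M⟮X⟯ :=
    eq_of_le_of_finrank_eq h1 (by rw [finrank_gen p hM hX, finrank_gen p hM hwM])
  change X ∈ M⟮w⟯
  rw [h2]; exact mem_adjoin_simple_self M X

/-- Existence of a derivation killing `M` and taking the value `1` at `g ∉ M`. -/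
lemma exists_derivation {M₀ : Subfield L} (hM₀ : pw L p ≤ M₀) {g : L} (hg : g ∉ M₀) :
    ∃ D : Derivation ℤ L L, (∀ m ∈ M₀, D m = 0) ∧ D g = 1 := by
  obtain ⟨M, hM, hmax⟩ := zorn_le_nonempty₀ {M : Subfield L | g ∉ M} (by
    intro c hc hchain y hy
    refine ⟨sSup c, ?_, fun z hz => le_sSup hz⟩
    intro hmem
    rw [Subfield.mem_sSup_of_directedOn ⟨y, hy⟩ hchain.directedOn] at hmem
    obtain ⟨s, hs, hgs⟩ := hmem
    exact hc hs hgs) M₀ hg
  have hgM : g ∉ M := hmax.1
  have hpM : pw L p ≤ M := hM₀.trans hM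
  have htop : ∀ h : L, h ∈ gen M g := by
    intro h
    by_cases hh : h ∈ M
    · exact le_gen M g hh
    · have : g ∈ gen M h := by
        by_contra hn
        have := hmax.2 (show gen M h ∈ {M : Subfield L | g ∉ M} from hn) (le_gen M h)
        exact hh (this (self_mem_gen M h))
      exact exchange p hpM this hgM
  have hsurj : Function.Surjective (aeval g : M[X] →ₐ[M] L) := by
    intro h
    have h1 : h ∈ (M⟮g⟯).toSubalgebra := htop h
    rw [adjoin_simple_toSubalgebra_of_isAlgebraic (isIntegral_of_pw p hpM g).isAlgebraic,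
      Algebra.adjoin_singleton_eq_range_aeval] at h1
    exact h1
  have hd : ∀ x : M[X], (aeval g : M[X] →ₐ[M] L) x = 0 →
      (aeval g : M[X] →ₐ[M] L) ((derivative' : Derivation M M[X] M[X]) x) = 0 := by
    intro x hx
    obtain ⟨r, rfl⟩ := minpoly.dvd M g hx
    have h0 : aeval g (derivative (minpoly M g)) = 0 := by
      rw [minpoly_eq p hpM hgM]
      simp [derivative_X_pow]
    simp [h0]
  let D₀ : Derivation M L L := Derivation.liftOfSurjective hsurj hd
  refine ⟨D₀.restrictScalars ℤ, fun m hm => ?_, ?_⟩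
  · exact D₀.map_algebraMap ⟨m, hM hm⟩
  · have := Derivation.liftOfSurjective_apply hsurj hd Polynomial.X
    simpa using this

/-- Euler derivation: kills `M`, fixes `g`. -/
lemma exists_euler {M₀ : Subfield L} (hM₀ : pw L p ≤ M₀) {g : L} (hg : g ∉ M₀) :
    ∃ D : Derivation ℤ L L, (∀ m ∈ M₀, D m = 0) ∧ D g = g := by
  obtain ⟨D, h1, h2⟩ := exists_derivation p hM₀ hg
  exact ⟨g • D, fun m hm => by simp [h1 m hm], by simp [h2]⟩

/-- An element of `F(X)` killed by a derivation not killing `X` lies in `F`. -/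
lemma mem_pw_of_deriv_eq_zero {X w : L} (hw : w ∈ gen (pw L p) X) (D : Derivation ℤ L L)
    (hX : D X ≠ 0) (h0 : D w = 0) : w ∈ pw L p := by
  by_contra hn
  obtain ⟨a, -, ha⟩ := chain _ _ (exchange p le_rfl hw hn)
  apply hX
  rw [ha D (fun m hm => deriv_pw p D hm), h0, mul_zero]

lemma iterate_euler {X : L} (D : Derivation ℤ L L) (hX : D X = X) {w : L}
    (hw : w ∈ gen (pw L p) X) : (⇑D)^[p] w = D w := by
  have h1 : w ∈ ((pw L p)⟮X⟯).toSubalgebra := hw
  rw [adjoin_simple_toSubalgebra_of_isAlgebraic (isIntegral_of_pw p le_rfl X).isAlgebraic,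
    Algebra.adjoin_singleton_eq_range_aeval] at h1
  obtain ⟨q, rfl⟩ := h1
  have hadd : ∀ (k : ℕ) (a b : L), (⇑D)^[k] (a + b) = (⇑D)^[k] a + (⇑D)^[k] b := by
    intro k
    induction k with
    | zero => intro a b; rfl
    | succ k ih => intro a b; simp only [Function.iterate_succ_apply, D.map_add, ih]
  have hmono : ∀ (c : L), c ∈ pw L p → ∀ (n k : ℕ),
      (⇑D)^[k] (c * X ^ n) = (n : L) ^ k * (c * X ^ n) := by
    intro c hc n k
    induction k with
    | zero => simp
    | succ k ih =>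
      rw [Function.iterate_succ_apply', ih]
      have h3 : D ((n : L) ^ k) = 0 := by
        rw [← Nat.cast_pow]; exact D.map_natCast _
      have h4 : D (X ^ n) = n * X ^ n := by
        rw [D.leibniz_pow, hX, nsmul_eq_mul, smul_eq_mul]
        rcases n with _ | n
        · simp
        · simp [pow_succ]
      rw [D.leibniz, D.leibniz, h3, h4, deriv_pw p D hc]
      simp only [smul_eq_mul]; ring
  change (⇑D)^[p] (aeval X q) = D (aeval X q)
  clear hw
  induction q using Polynomial.induction_on' with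
  | add a b ha hb => rw [map_add, hadd, ha, hb, D.map_add]
  | monomial n c =>
    rw [aeval_monomial]
    have h5 := hmono c c.2 n p
    have h6 := hmono c c.2 n 1
    have h7 : (n : L) ^ p = n := by
      have := map_natCast (frobenius L p) n
      rwa [frobenius_def] at this
    change (⇑D)^[p] ((c : L) * X ^ n) = D ((c : L) * X ^ n)
    rw [h5, h7]
    simpa using h6.symm

/-- Eigenvectors of the Euler derivation. -/
lemma eigen {X : L} (hX0 : X ≠ 0) (D : Derivation ℤ L L) (hX : D X = X) {w δ : L}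
    (hw : w ∈ gen (pw L p) X) (hw0 : w ≠ 0) (hδ : δ ∈ pw L p) (h : D w = δ * w) :
    ∃ (i : ℕ) (c : L), c ∈ pw L p ∧ δ = i ∧ w = c * X ^ i := by
  have hit : ∀ k : ℕ, (⇑D)^[k] w = δ ^ k * w := by
    intro k
    induction k with
    | zero => simp
    | succ k ih =>
      rw [Function.iterate_succ_apply', ih, D.leibniz, h, deriv_pw p D (pow_mem hδ k)]
      simp only [smul_eq_mul]; ring
  have h1 : δ ^ p = δ := by
    have := iterate_euler p D hX hw
    rw [hit, h] at this
    exact mul_right_cancel₀ hw0 this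
  have h2 : δ ∈ (⊥ : Subfield L) := (Subfield.mem_bot_iff_pow_eq_self L p).2 h1
  obtain ⟨i, hi⟩ : ∃ i : ℕ, δ = i := by
    obtain ⟨n, hn⟩ := (mem_bot_iff_intCast p L).1 h2
    refine ⟨(n : ZMod p).val, ?_⟩
    rw [← hn]
    have := map_intCast (ZMod.castHom (dvd_refl p) L) n
    rw [← this, ZMod.castHom_apply, ZMod.natCast_val]
  refine ⟨i, w / X ^ i, ?_, hi, by field_simp⟩
  apply mem_pw_of_deriv_eq_zero p (X := X) _ D (by rwa [hX])
  · have h4 : D (X ^ i) = i * X ^ i := by
      rw [D.leibniz_pow, hX, nsmul_eq_mul, smul_eq_mul]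
      rcases i with _ | n
      · simp
      · simp [pow_succ]
    rw [D.leibniz_div, h, h4, hi]
    simp only [smul_eq_mul]; ring
  · exact div_mem hw (pow_mem (self_mem_gen _ _) i)

end Crest.Agent.R9
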