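import Mathlib
import Crest.Prelude.Def_MilnorK
import Crest.Agent.R9.Deriv

/-! Classes modulo `p`-th powers, logarithmic derivatives and Steinberg elements. -/

set_option autoImplicit false

namespace Crest.Agent.R9

open Crest.NumberTheoryR.MilnorK

variable {L : Type*} [Field L] (p : ℕ) [hp : Fact p.Prime] [CharP L p]

open Classical in
/-- The class of a field element (junk value `0` at `0`). -/
noncomputable def cl (x : L) : KOne L p := if h : x = 0 then 0 else cls L p (Units.mk0 x h)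

omit hp [CharP L p] in
lemma cl_of_ne {x : L} (h : x ≠ 0) : cl p x = cls L p (Units.mk0 x h) := by
  simp [cl, h]

omit hp [CharP L p] in
lemma cl_unit (u : Lˣ) : cl p (u : L) = cls L p u := by
  rw [cl_of_ne p u.ne_zero, Units.mk0_val]

omit hp [CharP L p] in
lemma cls_mul (u v : Lˣ) : cls L p (u * v) = cls L p u + cls L p v := rfl

omit hp [CharP L p] in
lemma cl_mul {x y : L} (hx : x ≠ 0) (hy : y ≠ 0) : cl p (x * y) = cl p x + cl p y := by
  rw [cl_of_ne p hx, cl_of_ne p hy, cl_of_ne p (mul_ne_zero hx hy), ← cls_mul]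
  congr 1
  ext; simp

lemma aux_zero {A : Type*} [AddCommGroup A] {a : A} (h : a = a + a) : a = 0 := left_eq_add.1 h

omit hp [CharP L p] in
lemma cl_one : cl p (1 : L) = 0 := by
  have := cl_mul p (one_ne_zero (α := L)) one_ne_zero
  rw [mul_one] at this
  exact aux_zero this

omit hp [CharP L p] in
lemma cl_div {x y : L} (hx : x ≠ 0) (hy : y ≠ 0) : cl p (x / y) = cl p x - cl p y := by
  rw [eq_sub_iff_add_eq, ← cl_mul p (div_ne_zero hx hy) hy, div_mul_cancel₀ _ hy]

omit hp [CharP L p] in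
lemma cl_pow {x : L} (hx : x ≠ 0) (n : ℕ) : cl p (x ^ n) = n • cl p x := by
  induction n with
  | zero => rw [pow_zero, cl_one]; exact (zero_nsmul _).symm
  | succ n ih => rw [pow_succ, cl_mul p (pow_ne_zero _ hx) hx, ih, succ_nsmul]

omit hp [CharP L p] in
lemma exists_cl (a : KOne L p) : ∃ x : L, x ≠ 0 ∧ cl p x = a := by
  induction a using QuotientAddGroup.induction_on with
  | H u => exact ⟨(Additive.toMul u : Lˣ), Units.ne_zero _, by rw [cl_unit]; rfl⟩

lemma cl_eq_zero_iff {x : L} (hx : x ≠ 0) : cl p x = 0 ↔ x ∈ pw L p := by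
  rw [cl_of_ne p hx, mem_pw]
  change (QuotientAddGroup.mk (Additive.ofMul (Units.mk0 x hx)) :
    Additive Lˣ ⧸ pMultiples L p) = 0 ↔ _
  rw [QuotientAddGroup.eq_zero_iff]
  constructor
  · rintro ⟨u, hu⟩
    refine ⟨(Additive.toMul u : Lˣ), ?_⟩
    have := congrArg (fun t => ((Additive.toMul t : Lˣ) : L)) hu
    simpa using this
  · rintro ⟨y, hy⟩
    have hy0 : y ≠ 0 := by
      rintro rfl
      exact hx (by rw [← hy, zero_pow hp.out.ne_zero])
    refine ⟨Additive.ofMul (Units.mk0 y hy0), ?_⟩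
    apply Additive.toMul.injective
    ext
    simpa using hy

lemma cl_eq_iff {x y : L} (hx : x ≠ 0) (hy : y ≠ 0) :
    cl p x = cl p y ↔ ∃ e ∈ pw L p, e ≠ 0 ∧ x = e * y := by
  rw [← sub_eq_zero, ← cl_div p hx hy, cl_eq_zero_iff p (div_ne_zero hx hy)]
  constructor
  · intro h
    exact ⟨x / y, h, div_ne_zero hx hy, by field_simp⟩
  · rintro ⟨e, he, -, rfl⟩
    rwa [mul_div_cancel_right₀ _ hy]

lemma cl_pw_mul {e x : L} (he : e ∈ pw L p) (he0 : e ≠ 0) (hx : x ≠ 0) :
    cl p (e * x) = cl p x :=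
  (cl_eq_iff p (mul_ne_zero he0 hx) hx).2 ⟨e, he, he0, rfl⟩

/-- Logarithmic derivative on units. -/
noncomputable def dlU (D : Derivation ℤ L L) : Additive Lˣ →+ L where
  toFun u := D (Additive.toMul u : Lˣ) / (Additive.toMul u : Lˣ)
  map_zero' := by simp
  map_add' u v := by
    simp only [toMul_add, Units.val_mul, D.leibniz, smul_eq_mul]
    field_simp
    ring

/-- Logarithmic derivative on classes modulo `p`-th powers. -/
noncomputable def dl (D : Derivation ℤ L L) : KOne L p →+ L :=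
  QuotientAddGroup.lift (pMultiples L p) (dlU D) (by
    rintro _ ⟨u, rfl⟩
    rw [AddMonoidHom.mem_ker]
    change dlU D (p • u) = 0
    rw [map_nsmul, nsmul_eq_mul, CharP.cast_eq_zero L p, zero_mul])

omit hp in
lemma dl_cl (D : Derivation ℤ L L) {x : L} (hx : x ≠ 0) : dl p D (cl p x) = D x / x := by
  rw [cl_of_ne p hx]; rfl

omit [CharP L p] in
lemma zmod_smul (r : ZMod p) (a : KOne L p) : r • a = r.val • a := by
  conv_lhs => rw [← ZMod.natCast_zmod_val r]
  rw [Nat.cast_smul_eq_nsmul]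

lemma dl_smul (D : Derivation ℤ L L) (r : ZMod p) (a : KOne L p) :
    dl p D (r • a) = (r.val : L) * dl p D a := by
  rw [zmod_smul, map_nsmul, nsmul_eq_mul]

/-- The wedge of two logarithmic derivatives. -/
noncomputable def wedge (D₁ D₂ : Derivation ℤ L L) :
    TensorProduct (ZMod p) (KOne L p) (KOne L p) →+ L :=
  TensorProduct.liftAddHom
    { toFun := fun a =>
        { toFun := fun b => dl p D₁ a * dl p D₂ b - dl p D₂ a * dl p D₁ b
          map_zero' := by simp
          map_add' := fun b c => by simp only [map_add]; ring }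
      map_zero' := by ext b; simp
      map_add' := fun a c => by
        apply AddMonoidHom.ext; intro b
        simp only [map_add, AddMonoidHom.coe_mk, ZeroHom.coe_mk, AddMonoidHom.add_apply]; ring }
    (by
      intro r a b
      simp only [AddMonoidHom.coe_mk, ZeroHom.coe_mk, dl_smul]; ring)

lemma wedge_tmul (D₁ D₂ : Derivation ℤ L L) (a b : KOne L p) :
    wedge p D₁ D₂ (TensorProduct.tmul (ZMod p) a b) =
      dl p D₁ a * dl p D₂ b - dl p D₂ a * dl p D₁ b := rfl

lemma wedge_steinberg (D₁ D₂ : Derivation ℤ L L)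
    {t : TensorProduct (ZMod p) (KOne L p) (KOne L p)} (ht : t ∈ steinberg L p) :
    wedge p D₁ D₂ t = 0 := by
  induction ht using Submodule.span_induction with
  | mem t ht =>
    obtain ⟨f, hf, hf1, rfl⟩ := ht
    rw [wedge_tmul, ← cl_of_ne, ← cl_of_ne, dl_cl p _ hf, dl_cl p _ hf, dl_cl p _ hf1,
      dl_cl p _ hf1, D₁.map_sub, D₂.map_sub, D₁.map_one_eq_zero, D₂.map_one_eq_zero]
    ring
  | zero => exact map_zero _
  | add a b _ _ ha hb => rw [map_add, ha, hb, add_zero]
  | smul r a _ ha =>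
    rw [← ZMod.natCast_zmod_val r, Nat.cast_smul_eq_nsmul, map_nsmul, ha, smul_zero]

/-- A Steinberg-null pair is `p`-dependent. -/
lemma mem_gen_of_steinberg {u v : L} (hu : u ∉ pw L p) (hv : v ≠ 0)
    (h : TensorProduct.tmul (ZMod p) (cl p u) (cl p v) ∈ steinberg L p) :
    v ∈ gen (pw L p) u := by
  by_contra hn
  have hu0 : u ≠ 0 := fun h0 => hu (h0 ▸ zero_mem _)
  obtain ⟨D₁, -, h1⟩ := exists_derivation p le_rfl hu
  obtain ⟨D₂, h2, h3⟩ := exists_derivation p (le_gen _ u) hn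
  have := wedge_steinberg p D₁ D₂ h
  rw [wedge_tmul, dl_cl p _ hu0, dl_cl p _ hv, dl_cl p _ hu0, h1, h3, h2 u (self_mem_gen _ _)]
    at this
  simp [hu0, hv] at this

/-- Pairs `(x, ± (1 + x))`, `(x, ±(x - 1))` are Steinberg-null. -/
lemma steinberg_one_add {x : L} (hx : x ≠ 0) (hx1 : 1 + x ≠ 0) :
    TensorProduct.tmul (ZMod p) (cl p x) (cl p (1 + x)) ∈ steinberg L p := by
  apply Submodule.subset_span
  have h1 : (1 : L) - -x = 1 + x := by ring
  refine ⟨-x, neg_ne_zero.2 hx, h1 ▸ hx1, ?_⟩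
  rw [← cl_of_ne, ← cl_of_ne, h1]
  congr 1
  rw [neg_eq_neg_one_mul, cl_pw_mul p (neg_mem (one_mem _)) (by simp) hx]

lemma steinberg_sub_one {x : L} (hx : x ≠ 0) (hx1 : x - 1 ≠ 0) :
    TensorProduct.tmul (ZMod p) (cl p x) (cl p (x - 1)) ∈ steinberg L p := by
  apply Submodule.subset_span
  have h1 : (1 : L) - x = -1 * (x - 1) := by ring
  refine ⟨x, hx, by rw [h1]; exact mul_ne_zero (by simp) hx1, ?_⟩
  rw [← cl_of_ne, ← cl_of_ne, h1, cl_pw_mul p (neg_mem (one_mem _)) (by simp) hx1]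

/-- Rigidity. -/
lemma rigid {W W' : L} (hW : W ∉ pw L p) (hW' : W' ≠ 0) (hW'1 : 1 + W' ≠ 0) {n : ZMod p}
    (hn : n ≠ 0) (h1 : cl p W' = n • cl p W) (h2 : cl p (1 + W') = n • cl p (1 + W)) :
    W' = W ∧ n = 1 := by
  have hW0 : W ≠ 0 := fun h0 => hW (h0 ▸ zero_mem _)
  have hW1 : 1 + W ≠ 0 := fun h0 => hW (by
    rw [eq_neg_of_add_eq_zero_right h0]; exact neg_mem (one_mem _))
  obtain ⟨D, -, hD⟩ := exists_euler p le_rfl hW
  have e1 := congrArg (dl p D) h1
  have e2 := congrArg (dl p D) h2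
  rw [dl_smul, dl_cl p _ hW', dl_cl p _ hW0, hD, div_self hW0, mul_one] at e1
  rw [dl_smul, dl_cl p _ hW'1, dl_cl p _ hW1, D.map_add, D.map_add, D.map_one_eq_zero, hD,
    zero_add, zero_add] at e2
  have hn' : (n.val : L) ≠ 0 := by
    intro h0
    rw [CharP.cast_eq_zero_iff L p] at h0
    exact hn ((ZMod.val_eq_zero n).1 (Nat.eq_zero_of_dvd_of_lt h0 (ZMod.val_lt n)))
  have e3 : D W' = n.val * W' := by rw [← e1]; field_simp
  rw [e3] at e2
  have e4 : W' = W := by
    field_simp at e2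
    linear_combination e2
  refine ⟨e4, ?_⟩
  rw [e4] at h1
  by_contra hn1
  have h5 : (n - 1) • cl p W = 0 := by rw [sub_smul, one_smul, ← h1, sub_self]
  rw [smul_eq_zero] at h5
  rcases h5 with h5 | h5
  · exact hn1 (sub_eq_zero.1 h5)
  · exact hW ((cl_eq_zero_iff p hW0).1 h5)

end Crest.Agent.R9
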