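import Mathlib

/-! A multiplicative collineation between `K^×/E^×` and `L^×/F^×` comes from a field map. -/

set_option autoImplicit false

namespace Crest.Agent.R9

variable {K L : Type*} [Field K] [Field L]

/-- A multiplicative, line-preserving correspondence between `K^×/E^×` and `L^×/F^×`. -/
structure Corr (E : Subfield K) (F : Subfield L) (R : K → L → Prop) : Prop where
  ne_left : ∀ {x X}, R x X → x ≠ 0
  ne_right : ∀ {x X}, R x X → X ≠ 0
  mul : ∀ {x X y Y}, R x X → R y Y → R (x * y) (X * Y)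
  inv : ∀ {x X}, R x X → R x⁻¹ X⁻¹
  right_unique : ∀ {x X X'}, R x X → R x X' → ∃ e ∈ F, X' = e * X
  left_unique : ∀ {x x' X}, R x X → R x' X → ∃ e ∈ E, x' = e * x
  const : ∀ {e f}, e ∈ E → e ≠ 0 → f ∈ F → f ≠ 0 → R e f
  line : ∀ {x}, x ∉ E → ∃ W, W ∉ F ∧ R x W ∧ R (1 + x) (1 + W)
  line' : ∀ {W}, W ∉ F → ∃ x, x ∉ E ∧ R x W ∧ R (1 + x) (1 + W)

/-- `w` lies in the `E`-span of `1, x`. -/
def Sp2 (E : Subfield K) (x w : K) : Prop := ∃ a ∈ E, ∃ b ∈ E, w = a + b * x

/-- `w` lies in the `E`-span of `1, x, y`. -/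
def Sp3 (E : Subfield K) (x y w : K) : Prop :=
  ∃ a ∈ E, ∃ b ∈ E, ∃ c ∈ E, w = a + b * x + c * y

/-- `1, x, y` are independent over `E`. -/
def Ind (E : Subfield K) (x y : K) : Prop :=
  ∀ a ∈ E, ∀ b ∈ E, ∀ c ∈ E, a + b * x + c * y = 0 → a = 0 ∧ b = 0 ∧ c = 0

lemma ind2 {E : Subfield K} {x : K} (hx : x ∉ E) {a b : K} (ha : a ∈ E) (hb : b ∈ E)
    (h : a + b * x = 0) : a = 0 ∧ b = 0 := by
  have hb0 : b = 0 := by
    by_contra hb0
    apply hx
    have : x = -a / b := by field_simp; linear_combination h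
    rw [this]; exact div_mem (neg_mem ha) hb
  exact ⟨by simpa [hb0] using h, hb0⟩

lemma ind_of {E : Subfield K} {x y : K} (hx : x ∉ E) (hy : ¬ Sp2 E x y) : Ind E x y := by
  intro a ha b hb c hc h
  have hc0 : c = 0 := by
    by_contra hc0
    apply hy
    refine ⟨-a / c, div_mem (neg_mem ha) hc, -b / c, div_mem (neg_mem hb) hc, ?_⟩
    field_simp; linear_combination h
  have := ind2 hx ha hb (by simpa [hc0] using h)
  exact ⟨this.1, this.2, hc0⟩

lemma Ind.left {E : Subfield K} {x y : K} (h : Ind E x y) : x ∉ E := fun hx => by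
  have := (h (-x) (neg_mem hx) 1 (one_mem _) 0 (zero_mem _) (by ring)).2.1
  exact one_ne_zero this

lemma Ind.symm {E : Subfield K} {x y : K} (h : Ind E x y) : Ind E y x :=
  fun a ha b hb c hc e => by
    have := h a ha c hc b hb (by linear_combination e)
    exact ⟨this.1, this.2.2, this.2.1⟩

lemma Ind.right {E : Subfield K} {x y : K} (h : Ind E x y) : y ∉ E := h.symm.left

lemma Ind.not_sp2 {E : Subfield K} {x y : K} (h : Ind E x y) : ¬ Sp2 E x y := by
  rintro ⟨a, ha, b, hb, e⟩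
  have := (h a ha b hb (-1) (neg_mem (one_mem _)) (by linear_combination -e)).2.2
  simp at this

lemma exists_not_two {P Q : K → Prop} (hP : ∀ a b, P a → P b → P (a - b))
    (hQ : ∀ a b, Q a → Q b → Q (a - b)) (h1 : ∃ a, ¬ P a) (h2 : ∃ a, ¬ Q a) :
    ∃ a, ¬ P a ∧ ¬ Q a := by
  obtain ⟨a, ha⟩ := h1
  obtain ⟨b, hb⟩ := h2
  by_cases h1 : Q a
  · by_cases h2 : P b
    · exact ⟨a + b, fun h => ha (by simpa using hP _ _ h h2),
        fun h => hb (by simpa using hQ _ _ h h1)⟩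
    · exact ⟨b, h2, hb⟩
  · exact ⟨a, ha, h1⟩

lemma sp3_sub {E : Subfield K} {x y : K} (a b : K) (ha : Sp3 E x y a) (hb : Sp3 E x y b) :
    Sp3 E x y (a - b) := by
  obtain ⟨a1, h1, a2, h2, a3, h3, rfl⟩ := ha
  obtain ⟨b1, g1, b2, g2, b3, g3, rfl⟩ := hb
  exact ⟨a1 - b1, sub_mem h1 g1, a2 - b2, sub_mem h2 g2, a3 - b3, sub_mem h3 g3, by ring⟩

namespace Corr

variable {E : Subfield K} {F : Subfield L} {R : K → L → Prop}

lemma uniq (h : Corr E F R) {x : K} {W W' : L} (hW : W ∉ F) (h1 : R x W) (h2 : R (1 + x) (1 + W))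
    (h3 : R x W') (h4 : R (1 + x) (1 + W')) : W' = W := by
  obtain ⟨e, he, rfl⟩ := h.right_unique h1 h3
  obtain ⟨f, hf, hf'⟩ := h.right_unique h2 h4
  have := ind2 hW (sub_mem (one_mem _) hf) (sub_mem he hf) (by linear_combination hf')
  have h5 : e = 1 := by linear_combination this.2 - this.1
  rw [h5, one_mul]

lemma scale (h : Corr E F R) {x : K} {X : L} (h1 : R x X) {f : L} (hf : f ∈ F) (hf0 : f ≠ 0) :
    R x (f * X) := by
  simpa using h.mul (h.const (one_mem _) one_ne_zero hf hf0) h1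

lemma div (h : Corr E F R) {x y : K} {X Y : L} (h1 : R x X) (h2 : R y Y) : R (x / y) (X / Y) := by
  rw [div_eq_mul_inv, div_eq_mul_inv]; exact h.mul h1 (h.inv h2)

lemma ind_map (h : Corr E F R) {x y : K} {X Y : L} (hxy : Ind E x y) (hX : X ∉ F) (h1 : R x X)
    (h2 : R y Y) : Ind F X Y := by
  apply ind_of hX
  rintro ⟨a, ha, b, hb, rfl⟩
  apply hxy.not_sp2
  by_cases ha0 : a = 0
  · have hb0 : b ≠ 0 := by
      rintro rfl
      exact h.ne_right h2 (by simp [ha0])
    rw [ha0, zero_add] at h2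
    obtain ⟨e, he, rfl⟩ := h.left_unique (h.scale h1 hb hb0) h2
    exact ⟨0, zero_mem _, e, he, by ring⟩
  by_cases hb0 : b = 0
  · rw [hb0, zero_mul, add_zero] at h2
    obtain ⟨e, he, rfl⟩ := h.left_unique (h.const (one_mem _) one_ne_zero ha ha0) h2
    exact ⟨e, he, 0, zero_mem _, by ring⟩
  have hW : b / a * X ∉ F := by
    intro h0
    apply hX
    have : X = a / b * (b / a * X) := by field_simp
    rw [this]; exact mul_mem (div_mem ha hb) h0
  obtain ⟨w, -, hw1, hw2⟩ := h.line' hW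
  obtain ⟨e, he, rfl⟩ := h.left_unique (h.scale h1 (div_mem hb ha) (div_ne_zero hb0 ha0)) hw1
  have h3 := h.scale hw2 ha ha0
  have h4 : a * (1 + b / a * X) = a + b * X := by field_simp
  rw [h4] at h3
  obtain ⟨f, hf, rfl⟩ := h.left_unique h3 h2
  exact ⟨f, hf, f * e, mul_mem hf he, by ring⟩

/-- Points of a line go to points of the image line. -/
lemma on_line (h : Corr E F R) {x y : K} {X Y : L} (h1 : R x X) (h2 : R y Y) (hxy : y / x ∉ E) :
    ∃ t ∈ F, R (x + y) (X + t * Y) := by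
  obtain ⟨W, -, hW1, hW2⟩ := h.line hxy
  have hx := h.ne_left h1
  have h3 := h.mul h1 hW1
  have h4 := h.mul h1 hW2
  rw [mul_div_cancel₀ _ hx] at h3
  rw [mul_add, mul_one, mul_div_cancel₀ _ hx, mul_add, mul_one] at h4
  obtain ⟨t, ht, ht'⟩ := h.right_unique h2 h3
  exact ⟨t, ht, ht' ▸ h4⟩

open Classical in
/-- The map on non-constant elements. -/
noncomputable def a0 (h : Corr E F R) (x : K) : L :=
  if hx : x ∉ E then (h.line hx).choose else 0

lemma a0_spec (h : Corr E F R) {x : K} (hx : x ∉ E) :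
    h.a0 x ∉ F ∧ R x (h.a0 x) ∧ R (1 + x) (1 + h.a0 x) := by
  rw [a0, dif_pos hx]; exact (h.line hx).choose_spec

lemma a0_add_aux (h : Corr E F R) {x y : K} (hxy : Ind E x y) :
    R (1 + x + y) (1 + h.a0 x + h.a0 y) := by
  obtain ⟨hX, hX1, hX2⟩ := h.a0_spec hxy.left
  obtain ⟨hY, hY1, hY2⟩ := h.a0_spec hxy.right
  have hI := h.ind_map hxy hX hX1 hY1
  have n1 : y / (1 + x) ∉ E := by
    intro h0
    have := (hxy _ h0 _ h0 (-1) (neg_mem (one_mem _)) (by
      have := h.ne_left hX2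
      field_simp; ring)).2.2
    simp at this
  have n2 : x / (1 + y) ∉ E := by
    intro h0
    have := (hxy.symm _ h0 _ h0 (-1) (neg_mem (one_mem _)) (by
      have := h.ne_left hY2
      field_simp; ring)).2.2
    simp at this
  obtain ⟨t, ht, h1⟩ := h.on_line hX2 hY1 n1
  obtain ⟨s, hs, h2⟩ := h.on_line hY2 hX1 n2
  rw [show 1 + y + x = 1 + x + y by ring] at h2
  obtain ⟨e, he, he'⟩ := h.right_unique h2 h1
  have := hI (1 - e) (sub_mem (one_mem _) he) (1 - e * s) (sub_mem (one_mem _) (mul_mem he hs))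
    (t - e) (sub_mem ht he) (by linear_combination he')
  have ht1 : t = 1 := by linear_combination this.2.2 - this.1
  simpa [ht1] using h1

lemma a0_add (h : Corr E F R) {x y : K} (hxy : Ind E x y) :
    h.a0 (x + y) = h.a0 x + h.a0 y := by
  obtain ⟨hX, hX1, hX2⟩ := h.a0_spec hxy.left
  obtain ⟨hY, hY1, hY2⟩ := h.a0_spec hxy.right
  have hI := h.ind_map hxy hX hX1 hY1
  have n0 : x + y ∉ E := by
    intro h0
    have := (hxy _ (neg_mem h0) 1 (one_mem _) 1 (one_mem _) (by ring)).2.2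
    simp at this
  obtain ⟨hS, hS1, hS2⟩ := h.a0_spec n0
  have n1 : y / x ∉ E := by
    intro h0
    have := (hxy 0 (zero_mem _) _ h0 (-1) (neg_mem (one_mem _)) (by
      have := h.ne_left hX1
      field_simp; ring)).2.2
    simp at this
  obtain ⟨r, hr, h1⟩ := h.on_line hX1 hY1 n1
  obtain ⟨e, he, he'⟩ := h.right_unique h1 hS1
  have h2 := h.a0_add_aux hxy
  rw [add_assoc] at h2
  obtain ⟨f, hf, hf'⟩ := h.right_unique hS2 h2
  rw [he'] at hf'
  have := hI (1 - f) (sub_mem (one_mem _) hf) (1 - f * e) (sub_mem (one_mem _) (mul_mem hf he))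
    (1 - f * e * r) (sub_mem (one_mem _) (mul_mem (mul_mem hf he) hr))
    (by linear_combination hf')
  have f1 : f = 1 := by linear_combination -this.1
  have e1 : e = 1 := by
    have := this.2.1; rw [f1] at this; linear_combination -this
  have r1 : r = 1 := by
    have := this.2.2; rw [f1, e1] at this; linear_combination -this
  rw [he', e1, r1]; ring

lemma a0_mul (h : Corr E F R) {x v : K} (hxy : Ind E x (x * v)) :
    h.a0 (x * v) = h.a0 x * h.a0 v := by
  obtain ⟨hX, hX1, hX2⟩ := h.a0_spec hxy.left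
  obtain ⟨hY, hY1, hY2⟩ := h.a0_spec hxy.right
  have hI := h.ind_map hxy hX hX1 hY1
  have n0 : x + x * v ∉ E := by
    intro h0
    have := (hxy _ (neg_mem h0) 1 (one_mem _) 1 (one_mem _) (by ring)).2.2
    simp at this
  have n1 : v ∉ E := by
    intro h0
    have := (hxy 0 (zero_mem _) _ h0 (-1) (neg_mem (one_mem _)) (by ring)).2.2
    simp at this
  obtain ⟨hV, hV1, hV2⟩ := h.a0_spec n1
  obtain ⟨hS, hS1, hS2⟩ := h.a0_spec n0
  rw [h.a0_add hxy] at hS1
  have h3 := h.mul hX1 hV1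
  have h4 := h.mul hX1 hV2
  rw [mul_add, mul_one, mul_add, mul_one] at h4
  obtain ⟨t, ht, ht'⟩ := h.right_unique hY1 h3
  obtain ⟨e, he, he'⟩ := h.right_unique h4 hS1
  rw [ht'] at he'
  have := hI 0 (zero_mem _) (1 - e) (sub_mem (one_mem _) he)
    (1 - e * t) (sub_mem (one_mem _) (mul_mem he ht)) (by linear_combination he')
  have e1 : e = 1 := by linear_combination -this.2.1
  have t1 : t = 1 := by
    have := this.2.2; rw [e1] at this; linear_combination -this
  rw [ht', t1, one_mul]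

section
variable (h4 : ∀ x y : K, ∃ w, ¬ Sp3 E x y w)
include h4

omit h4 in
lemma diff_aux (h : Corr E F R) {x w w' : K} (hw : ¬ Sp2 E x w) (hw' : ¬ Sp3 E x w w') :
    h.a0 (x + w) - h.a0 w = h.a0 (x + w') - h.a0 w' := by
  have i1 : Ind E (x + w) w' := by
    apply ind_of
    · intro h0
      exact hw ⟨x + w, h0, -1, neg_mem (one_mem _), by ring⟩
    · rintro ⟨a, ha, b, hb, e⟩
      exact hw' ⟨a, ha, b, hb, b, hb, by linear_combination e⟩
  have i2 : Ind E w (x + w') := by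
    apply ind_of
    · intro h0
      exact hw ⟨w, h0, 0, zero_mem _, by ring⟩
    · rintro ⟨a, ha, b, hb, e⟩
      exact hw' ⟨a, ha, -1, neg_mem (one_mem _), b, hb, by linear_combination e⟩
  have e1 := h.a0_add i1
  have e2 := h.a0_add i2
  rw [show w + (x + w') = x + w + w' by ring] at e2
  linear_combination e2 - e1

lemma diff_eq (h : Corr E F R) {x w w' : K} (hw : ¬ Sp2 E x w) (hw' : ¬ Sp2 E x w') :
    h.a0 (x + w) - h.a0 w = h.a0 (x + w') - h.a0 w' := by
  obtain ⟨u, hu1, hu2⟩ := exists_not_two sp3_sub sp3_sub (h4 x w) (h4 x w')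
  rw [h.diff_aux hw hu1, h.diff_aux hw' hu2]

omit h4 in
lemma not_sp2_of {x y w : K} (hw : ¬ Sp3 E x y w) : ¬ Sp2 E x w := by
  rintro ⟨a, ha, b, hb, e⟩
  exact hw ⟨a, ha, b, hb, 0, zero_mem _, by linear_combination e⟩

/-- The map on all elements. -/
noncomputable def a1 (h : Corr E F R) (x : K) : L :=
  h.a0 (x + (h4 x 0).choose) - h.a0 (h4 x 0).choose

lemma a1_eq (h : Corr E F R) {x w : K} (hw : ¬ Sp2 E x w) :
    h.a1 h4 x = h.a0 (x + w) - h.a0 w :=
  h.diff_eq h4 (not_sp2_of (h4 x 0).choose_spec) hw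

lemma a1_of_notMem (h : Corr E F R) {x : K} (hx : x ∉ E) : h.a1 h4 x = h.a0 x := by
  have hw := not_sp2_of (h4 x 0).choose_spec
  rw [h.a1_eq h4 hw, h.a0_add (ind_of hx hw), add_sub_cancel_right]

lemma a1_add (h : Corr E F R) (x y : K) : h.a1 h4 (x + y) = h.a1 h4 x + h.a1 h4 y := by
  obtain ⟨w, hw⟩ := h4 x y
  have h1 : ¬ Sp2 E (x + y) w := by
    rintro ⟨a, ha, b, hb, e⟩
    exact hw ⟨a, ha, b, hb, b, hb, by linear_combination e⟩
  have h2 : ¬ Sp2 E x (y + w) := by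
    rintro ⟨a, ha, b, hb, e⟩
    exact hw ⟨a, ha, b, hb, -1, neg_mem (one_mem _), by linear_combination e⟩
  have h3 : ¬ Sp2 E y w := by
    rintro ⟨a, ha, b, hb, e⟩
    exact hw ⟨a, ha, 0, zero_mem _, b, hb, by linear_combination e⟩
  rw [h.a1_eq h4 h1, h.a1_eq h4 h2, h.a1_eq h4 h3, add_assoc]
  ring

lemma a1_sub (h : Corr E F R) (x y : K) : h.a1 h4 (x - y) = h.a1 h4 x - h.a1 h4 y := by
  have := h.a1_add h4 (x - y) y
  rw [sub_add_cancel] at this
  linear_combination -this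

lemma a1_mul_aux (h : Corr E F R) {x v : K} (hx : x ∉ E) (hv : ¬ Sp2 E x (x * v)) :
    h.a1 h4 (x * v) = h.a1 h4 x * h.a1 h4 v := by
  have hI := ind_of hx hv
  have n1 : v ∉ E := fun h0 => hv ⟨0, zero_mem _, v, h0, by ring⟩
  rw [h.a1_of_notMem h4 hx, h.a1_of_notMem h4 hI.right, h.a1_of_notMem h4 n1, h.a0_mul hI]

lemma a1_mul_aux2 (h : Corr E F R) {x : K} (hx : x ∉ E) (v : K) :
    h.a1 h4 (x * v) = h.a1 h4 x * h.a1 h4 v := by
  have hx0 : x ≠ 0 := fun h0 => hx (h0 ▸ zero_mem _)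
  obtain ⟨w, hw⟩ := h4 x (x * v)
  have h1 : ¬ Sp2 E x (x * (w / x)) := by
    rw [mul_div_cancel₀ _ hx0]; exact not_sp2_of hw
  have h2 : ¬ Sp2 E x (x * (v + w / x)) := by
    rw [mul_add, mul_div_cancel₀ _ hx0]
    rintro ⟨a, ha, b, hb, e⟩
    exact hw ⟨a, ha, b, hb, -1, neg_mem (one_mem _), by linear_combination e⟩
  have e1 := h.a1_mul_aux h4 hx h1
  have e2 := h.a1_mul_aux h4 hx h2
  rw [mul_add, h.a1_add, h.a1_add, e1] at e2
  linear_combination e2

lemma a1_mul (h : Corr E F R) (x v : K) : h.a1 h4 (x * v) = h.a1 h4 x * h.a1 h4 v := by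
  by_cases hx : x ∈ E
  · obtain ⟨w, hw⟩ := h4 0 0
    have h1 : w ∉ E := fun h0 => hw ⟨w, h0, 0, zero_mem _, 0, zero_mem _, by ring⟩
    have h2 : x + w ∉ E := fun h0 => h1 (by simpa using sub_mem h0 hx)
    have e1 := h.a1_mul_aux2 h4 h1 v
    have e2 := h.a1_mul_aux2 h4 h2 v
    rw [add_mul, h.a1_add, h.a1_add, e1] at e2
    linear_combination e2
  · exact h.a1_mul_aux2 h4 hx v

/-- The ring homomorphism. -/
noncomputable def hom (h : Corr E F R) : K →+* L where
  toFun := h.a1 h4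
  map_one' := by
    obtain ⟨w, hw⟩ := h4 0 0
    have h1 : w ∉ E := fun h0 => hw ⟨w, h0, 0, zero_mem _, 0, zero_mem _, by ring⟩
    have e := h.a1_mul h4 w 1
    rw [mul_one, h.a1_of_notMem h4 h1] at e
    have := h.ne_right (h.a0_spec h1).2.1
    exact (mul_eq_left₀ this).1 e.symm
  map_mul' := h.a1_mul h4
  map_zero' := by
    have := h.a1_add h4 0 0
    rw [add_zero] at this
    linear_combination -this
  map_add' := h.a1_add h4

theorem exists_ringEquiv (h : Corr E F R) :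
    ∃ α : K ≃+* L, ∀ x : K, x ≠ 0 → R x (α x) := by
  obtain ⟨w, hw⟩ := h4 0 0
  have h1 : w ∉ E := fun h0 => hw ⟨w, h0, 0, zero_mem _, 0, zero_mem _, by ring⟩
  have hs0 : ∀ W, W ∉ F → ∃ x, h.hom h4 x = W := by
    intro W hW
    obtain ⟨x, hx, hx1, hx2⟩ := h.line' hW
    refine ⟨x, ?_⟩
    change h.a1 h4 x = W
    rw [h.a1_of_notMem h4 hx]
    exact h.uniq hW hx1 hx2 (h.a0_spec hx).2.1 (h.a0_spec hx).2.2
  have hsurj : Function.Surjective (h.hom h4) := by
    intro W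
    by_cases hW : W ∈ F
    · have hV := (h.a0_spec h1).1
      obtain ⟨a, ha⟩ := hs0 _ hV
      obtain ⟨b, hb⟩ := hs0 (W + h.a0 w) (fun h0 => hV (by simpa using sub_mem h0 hW))
      exact ⟨b - a, by rw [map_sub, ha, hb]; ring⟩
    · exact hs0 W hW
  have hR : ∀ x, x ∉ E → R x (h.hom h4 x) := by
    intro x hx
    change R x (h.a1 h4 x)
    rw [h.a1_of_notMem h4 hx]
    exact (h.a0_spec hx).2.1
  refine ⟨RingEquiv.ofBijective (h.hom h4) ⟨(h.hom h4).injective, hsurj⟩, fun x hx0 => ?_⟩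
  change R x (h.hom h4 x)
  by_cases hx : x ∈ E
  · have hw0 : w ≠ 0 := fun h0 => h1 (h0 ▸ zero_mem _)
    have h2 : x * w ∉ E := by
      intro h0
      apply h1
      have : w = x⁻¹ * (x * w) := by field_simp
      rw [this]; exact mul_mem (inv_mem hx) h0
    have := h.div (hR _ h2) (hR _ h1)
    rwa [← map_div₀, mul_div_cancel_right₀ _ hw0] at this
  · exact hR x hx

end

end Corr

end Crest.Agent.R9
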