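import Mathlib
import Crest.Agent.R9.Deriv
import Crest.Agent.R9.Proj

/-! Facts on finitely generated extensions of algebraically closed fields. -/

set_option autoImplicit false

namespace Crest.Agent.R9

open IntermediateField

lemma extend_derivation {R S T : Type*} [CommRing R] [CommRing S] [CommRing T] [Algebra R S]
    [Algebra R T] [Algebra S T] [IsScalarTower R S T] [Algebra.FormallyEtale S T]
    (d : Derivation R S T) : ∃ D : Derivation R T T, ∀ s, D (algebraMap S T s) = d s := by
  refine ⟨((LinearMap.liftBaseChange T d.liftKaehlerDifferential) ∘ₗ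
    (KaehlerDifferential.tensorKaehlerEquivOfFormallyEtale R S T).symm.toLinearMap).compDer
      (KaehlerDifferential.D R T), fun s => ?_⟩
  change LinearMap.liftBaseChange T d.liftKaehlerDifferential
    ((KaehlerDifferential.tensorKaehlerEquivOfFormallyEtale R S T).symm
      (KaehlerDifferential.D R T (algebraMap S T s))) = _
  rw [KaehlerDifferential.tensorKaehlerEquivOfFormallyEtale_symm_D_algebraMap]
  simp

lemma exists_partial {k L ι : Type*} [Field k] [Field L] [Algebra k L] [DecidableEq ι] {v : ι → L}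
    (hv : AlgebraicIndependent k v) [Algebra.IsSeparable (adjoin k (Set.range v)) L] (i : ι) :
    ∃ D : Derivation ℤ L L, ∀ j, D (v j) = if j = i then 1 else 0 := by
  set S := MvPolynomial ι k
  set M := adjoin k (Set.range v)
  let _i1 : Algebra S M :=
    ((hv.aevalEquivField : FractionRing S →+* M).comp (algebraMap S (FractionRing S))).toAlgebra
  have : IsFractionRing S M :=
    IsLocalization.isLocalization_of_algEquiv (nonZeroDivisors S)
      (AlgEquiv.ofRingEquiv (f := hv.aevalEquivField.toRingEquiv) (fun _ => rfl))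
  let _i2 : Algebra S L := ((algebraMap M L).comp (algebraMap S M)).toAlgebra
  have : IsScalarTower S M L := IsScalarTower.of_algebraMap_eq' rfl
  have hS : ∀ s : S, algebraMap S L s = MvPolynomial.aeval v s := fun s =>
    hv.aevalEquivField_algebraMap_apply_coe s
  have : IsScalarTower k S L := IsScalarTower.of_algebraMap_eq (fun c => by
    rw [hS, AlgHom.commutes])
  have : Algebra.FormallyEtale S M := .of_isLocalization (nonZeroDivisors S)
  have : Algebra.FormallyEtale M L := Algebra.FormallyEtale.of_isSeparable _ L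
  have : Algebra.FormallyEtale S L := .comp S M L
  obtain ⟨D, hD⟩ := extend_derivation ((Algebra.linearMap S L).compDer (MvPolynomial.pderiv i))
  refine ⟨D.restrictScalars ℤ, fun j => ?_⟩
  have := hD (MvPolynomial.X j)
  rw [hS, MvPolynomial.aeval_X] at this
  change D (v j) = _
  rw [this]
  change algebraMap S L (MvPolynomial.pderiv i (MvPolynomial.X j)) = _
  rw [MvPolynomial.pderiv_X]
  by_cases h : j = i
  · simp [h]
  · simp [h]

lemma essFiniteType_of {L : Type*} [Field L] (l : Subfield L)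
    (hL : ∃ s : Finset L, Subfield.closure ((l : Set L) ∪ (s : Set L)) = ⊤) :
    Algebra.EssFiniteType l L := by
  obtain ⟨s, hs⟩ := hL
  refine fg_top_iff.1 ⟨s, ?_⟩
  apply toSubfield_injective
  rw [adjoin_toSubfield, top_toSubfield, ← hs]
  congr 2
  ext x
  exact ⟨fun ⟨c, hc⟩ => hc ▸ c.2, fun h => ⟨⟨x, h⟩, rfl⟩⟩

lemma exists_notMem_gen {L : Type*} [Field L] (p : ℕ) [hp : Fact p.Prime] [CharP L p]
    (l : Subfield L) [IsAlgClosed l]
    (hL : ∃ s : Finset L, Subfield.closure ((l : Set L) ∪ (s : Set L)) = ⊤)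
    (hL2 : 2 ≤ Algebra.trdeg l L) (X : L) : ∃ Y, Y ∉ gen (pw L p) X := by
  classical
  have := essFiniteType_of l hL
  obtain ⟨s, hs, H⟩ := exists_isTranscendenceBasis_and_isSeparable_of_perfectField l L
  have : Algebra.IsSeparable (adjoin l (Set.range ((↑) : s → L))) L := by
    convert! H <;> simp
  have hcard : 1 < s.card := by
    rw [← hs.cardinalMk_eq_trdeg, Cardinal.mk_coe_finset] at hL2
    exact_mod_cast hL2
  obtain ⟨a, ha, b, hb, hab⟩ := Finset.one_lt_card.1 hcard
  obtain ⟨D₁, h1⟩ := exists_partial hs.1 ⟨a, ha⟩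
  obtain ⟨D₂, h2⟩ := exists_partial hs.1 ⟨b, hb⟩
  have e1 : D₁ a = 1 := by simpa using h1 ⟨a, ha⟩
  have e2 : D₁ b = 0 := by simpa [hab.symm] using h1 ⟨b, hb⟩
  have e3 : D₂ a = 0 := by simpa [hab] using h2 ⟨a, ha⟩
  have e4 : D₂ b = 1 := by simpa using h2 ⟨b, hb⟩
  by_contra hn
  push Not at hn
  obtain ⟨a', -, ha'⟩ := chain _ _ (hn a)
  obtain ⟨b', -, hb'⟩ := chain _ _ (hn b)
  have hF : ∀ D : Derivation ℤ L L, ∀ m ∈ pw L p, D m = 0 := fun D m hm => deriv_pw p D hm
  rw [ha' _ (hF _)] at e1 e3
  rw [hb' _ (hF _)] at e2 e4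
  have : (1 : L) = 0 := by
    linear_combination (-(b' * D₂ X)) * e1 - e4 + (a' * D₂ X) * e2
  exact one_ne_zero this

lemma exists_not_sp3 {L : Type*} [Field L] (E : Subfield L)
    (h : ∀ X : L, ∃ Y, Y ∉ gen E X) (x y : L) : ∃ w, ¬ Sp3 E x y w := by
  classical
  by_contra hn
  push Not at hn
  obtain ⟨X, hX⟩ := h 0
  have hX' : X ∉ E := fun h0 => hX (le_gen _ _ h0)
  obtain ⟨Y, hY⟩ := h X
  have hli : LinearIndependent E ![1, X, Y, X * Y] := by
    rw [Fintype.linearIndependent_iff]
    intro g hg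
    simp only [Fin.sum_univ_four, Matrix.cons_val_zero, Matrix.cons_val_one, Matrix.cons_val,
      Algebra.smul_def] at hg
    have hg' : ((g 0 : L) + g 1 * X) + ((g 2 : L) + g 3 * X) * Y = 0 := by
      change (g 0 : L) * 1 + g 1 * X + g 2 * Y + g 3 * (X * Y) = 0 at hg
      linear_combination hg
    have m1 : ∀ a b : E, (a : L) + b * X ∈ gen E X := fun a b =>
      add_mem (le_gen _ _ a.2) (mul_mem (le_gen _ _ b.2) (self_mem_gen _ _))
    obtain ⟨h1, h2⟩ := ind2 hY (m1 _ _) (m1 _ _) hg'
    obtain ⟨h3, h4⟩ := ind2 hX' (g 0).2 (g 1).2 h1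
    obtain ⟨h5, h6⟩ := ind2 hX' (g 2).2 (g 3).2 h2
    intro i
    fin_cases i
    · exact Subtype.ext h3
    · exact Subtype.ext h4
    · exact Subtype.ext h5
    · exact Subtype.ext h6
  have hspan : ⊤ ≤ Submodule.span E (Set.range ![1, x, y]) := by
    intro w _
    obtain ⟨a, ha, b, hb, c, hc, rfl⟩ := hn w
    rw [Submodule.mem_span_range_iff_exists_fun]
    refine ⟨![⟨a, ha⟩, ⟨b, hb⟩, ⟨c, hc⟩], ?_⟩
    simp only [Fin.sum_univ_three, Matrix.cons_val_zero, Matrix.cons_val_one, Matrix.cons_val,
      Algebra.smul_def]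
    change a * 1 + b * x + c * y = _
    ring
  have h1 : Module.finrank E L ≤ 3 := by
    simpa using finrank_le_of_span_eq_top (top_le_iff.1 hspan)
  have : Module.Finite E L := ⟨⟨(Set.finite_range ![1, x, y]).toFinset, by
    simpa using top_le_iff.1 hspan⟩⟩
  have h2 := hli.fintype_card_le_finrank
  simp at h2
  omega

/-- An element with roots of every order is a constant. -/
lemma mem_of_roots {L : Type*} [Field L] (l : Subfield L) [IsAlgClosed l]
    (hL : ∃ s : Finset L, Subfield.closure ((l : Set L) ∪ (s : Set L)) = ⊤) {y : L}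
    (hy : ∀ m : ℕ, 0 < m → ∃ z : L, z ^ m = y) : y ∈ l := by
  classical
  have := essFiniteType_of l hL
  by_contra hn
  have htr : Transcendental l y := by
    intro halg
    apply hn
    have := minpoly.mem_range_of_degree_eq_one l y
      (IsAlgClosed.degree_eq_one_of_irreducible l (minpoly.irreducible halg.isIntegral))
    obtain ⟨c, rfl⟩ := this
    exact c.2
  have hind : AlgebraicIndepOn l id ({y} : Set L) := by
    rw [AlgebraicIndepOn, algebraicIndependent_unique_type_iff]
    simpa using htr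
  obtain ⟨t, hyt, ht⟩ := exists_isTranscendenceBasis_superset hind
  have hyt' : y ∈ t := hyt rfl
  set M := adjoin l (Set.range ((↑) : t → L))
  have : Algebra.IsAlgebraic M L := ht.isAlgebraic_field
  have : Algebra.EssFiniteType M L := .of_comp l _ _
  have : Module.Finite M L := Algebra.finite_of_essFiniteType_of_isAlgebraic
  set n := Module.finrank M L
  have hn0 : 0 < n := Module.finrank_pos
  obtain ⟨z, hz⟩ := hy (n + 1) (Nat.succ_pos _)
  set S := MvPolynomial t l
  let yM : M := ht.1.aevalEquivField (algebraMap S _ (MvPolynomial.X ⟨y, hyt'⟩))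
  have hyM : algebraMap M L yM = y := by
    change (yM : L) = y
    rw [ht.1.aevalEquivField_algebraMap_apply_coe, MvPolynomial.aeval_X]
  have h1 : (Algebra.norm M z) ^ (n + 1) = yM ^ n := by
    rw [← map_pow, hz, ← hyM, Algebra.norm_algebraMap]
  have h2 : (ht.1.aevalEquivField.symm (Algebra.norm M z)) ^ (n + 1) =
      algebraMap S (FractionRing S) (MvPolynomial.X ⟨y, hyt'⟩ ^ n) := by
    rw [← map_pow, h1, map_pow, map_pow, AlgEquiv.symm_apply_apply]
  obtain ⟨r, hr⟩ := IsIntegrallyClosed.exists_algebraMap_eq_of_isIntegral_pow (R := S)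
    (Nat.succ_pos n) (h2 ▸ isIntegral_algebraMap)
  rw [← hr, ← map_pow] at h2
  have h3 := IsFractionRing.injective S (FractionRing S) h2
  have h4 := congrArg (fun q => (MvPolynomial.aeval
    (fun _ : t => (Polynomial.X : Polynomial l)) q).natDegree) h3
  simp only [map_pow, MvPolynomial.aeval_X, Polynomial.natDegree_pow, Polynomial.natDegree_X,
    mul_one] at h4
  have h5 : n + 1 ∣ n := ⟨_, h4.symm⟩
  exact absurd (Nat.le_of_dvd hn0 h5) (by omega)

lemma map_le_const {K L : Type*} [Field K] [Field L] (k : Subfield K) (l : Subfield L)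
    [IsAlgClosed k] [IsAlgClosed l]
    (hL : ∃ s : Finset L, Subfield.closure ((l : Set L) ∪ (s : Set L)) = ⊤) (α : K →+* L)
    {x : K} (hx : x ∈ k) : α x ∈ l := by
  apply mem_of_roots l hL
  intro m hm
  obtain ⟨z, hz⟩ := IsAlgClosed.exists_pow_nat_eq (⟨x, hx⟩ : k) hm
  refine ⟨α z, ?_⟩
  rw [← map_pow]
  congr 1
  exact congrArg Subtype.val hz

end Crest.Agent.R9
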