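import Mathlib
import Crest.Agent.R9.Cls

/-! The functional equation argument: a compatible map, suitably scaled, preserves lines. -/

set_option autoImplicit false

namespace Crest.Agent.R9

open Crest.NumberTheoryR.MilnorK

variable {L : Type*} [Field L] (p : ℕ) [hp : Fact p.Prime] [CharP L p]

lemma ne_zero_of_notMem {M : Subfield L} {X : L} (h : X ∉ M) : X ≠ 0 :=
  fun h0 => h (h0 ▸ zero_mem _)

lemma one_add_notMem {M : Subfield L} {X : L} (h : X ∉ M) : 1 + X ∉ M :=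
  fun h0 => h (by simpa using sub_mem h0 (one_mem M))

lemma deriv_pow_euler {X : L} (D : Derivation ℤ L L) {a : L} (hX : D X = a * X) (i : ℕ) :
    D (X ^ i) = i * a * X ^ i := by
  rw [D.leibniz_pow, hX, nsmul_eq_mul, smul_eq_mul]
  rcases i with _ | n
  · simp
  · simp [pow_succ]; ring

lemma single {X X' A δ : L} (hX : X ∉ pw L p) (hX' : X' ∈ gen (pw L p) X) (hX'0 : X' ≠ 0)
    (D : Derivation ℤ L L) (hD : D X = X) (hA : D X' = A * X') (hAg : A ∈ gen (pw L p) X)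
    (hAF : A ∉ pw L p) (hδ : δ ∈ pw L p) (hDA : D A = δ * (A * (1 - A))) :
    ∃ i : ℕ, δ = i ∧ (i : L) ≠ 0 ∧
      ∃ W : L, W ∉ pw L p ∧ cl p W = i • cl p X ∧ cl p (1 + W) = i • cl p X' := by
  have hX0 : X ≠ 0 := ne_zero_of_notMem hX
  have hA0 : A ≠ 0 := ne_zero_of_notMem hAF
  have hA1 : 1 - A ≠ 0 := fun h => hAF (by rw [← sub_eq_zero.1 h]; exact one_mem _)
  have hw : A / (1 - A) ∈ gen (pw L p) X := div_mem hAg (sub_mem (one_mem _) hAg)
  have hw0 : A / (1 - A) ≠ 0 := div_ne_zero hA0 hA1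
  have hDw : D (A / (1 - A)) = δ * (A / (1 - A)) := by
    rw [D.leibniz_div, D.map_sub, D.map_one_eq_zero, hDA]
    simp only [smul_eq_mul]
    field_simp
    ring
  obtain ⟨i, c, hc, hi, hwc⟩ := eigen p hX0 D hD hw hw0 hδ hDw
  have h1w : 1 + A / (1 - A) = (1 - A)⁻¹ := by field_simp; ring
  have hwF : A / (1 - A) ∉ pw L p := by
    intro h
    apply hAF
    have h2 : (1 - A)⁻¹ ∈ pw L p := h1w ▸ add_mem (one_mem _) h
    have h3 : 1 - A ∈ pw L p := by simpa using inv_mem h2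
    simpa using sub_mem (one_mem (pw L p)) h3
  have hc0 : c ≠ 0 := by
    rintro rfl
    exact hw0 (by rw [hwc, zero_mul])
  refine ⟨i, hi, ?_, A / (1 - A), hwF, ?_, ?_⟩
  · intro h0
    apply hwF
    apply mem_pw_of_deriv_eq_zero p hw D (by rwa [hD])
    rw [hDw, hi, h0, zero_mul]
  · rw [hwc, cl_pw_mul p hc hc0 (pow_ne_zero _ hX0), cl_pow p hX0]
  · rw [← cl_pow p hX'0, h1w]
    have hR : (1 - A) * X' ^ i ∈ pw L p := by
      apply mem_pw_of_deriv_eq_zero p (X := X) _ D (by rwa [hD])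
      · rw [D.leibniz, deriv_pow_euler D hA, D.map_sub, D.map_one_eq_zero, hDA, hi]
        simp only [smul_eq_mul]; ring
      · exact mul_mem (sub_mem (one_mem _) hAg) (pow_mem hX' i)
    have hR0 : (1 - A) * X' ^ i ≠ 0 := mul_ne_zero hA1 (pow_ne_zero _ hX'0)
    rw [← cl_pw_mul p hR hR0 (inv_ne_zero hA1)]
    congr 1
    field_simp

lemma core {X Y X' Y' Z : L} (hX : X ∉ pw L p) (hY : Y ∉ gen (pw L p) X)
    (hX'0 : X' ≠ 0) (hY'0 : Y' ≠ 0) (hZ0 : Z ≠ 0)
    (hX' : X' ∈ gen (pw L p) X) (hY' : Y' ∈ gen (pw L p) Y)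
    (hZ : Z / Y ∈ gen (pw L p) (X / Y)) (hZ' : Z / Y' ∈ gen (pw L p) (X' / Y'))
    (hnX : ∀ n : ℕ, cl p X' ≠ n • cl p X) (hnY : ∀ n : ℕ, cl p Y' ≠ n • cl p Y) :
    ∃ i : ℕ, (i : L) ≠ 0 ∧
      (∃ W : L, W ∉ pw L p ∧ cl p W = i • cl p X ∧ cl p (1 + W) = i • cl p X') ∧
      (∃ W : L, W ∉ pw L p ∧ cl p W = i • cl p Y ∧ cl p (1 + W) = i • cl p Y') := by
  have hX0 : X ≠ 0 := ne_zero_of_notMem hX
  have hY0 : Y ≠ 0 := ne_zero_of_notMem hY
  have hYF : Y ∉ pw L p := fun h => hY (le_gen _ _ h)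
  have hXY : X ∉ gen (pw L p) Y := fun h => hY (exchange p le_rfl h hX)
  obtain ⟨D₁, h1Y, h1X⟩ := exists_euler p (le_gen _ Y) hXY
  obtain ⟨D₂, h2X, h2Y⟩ := exists_euler p (le_gen _ X) hY
  have hF : ∀ D : Derivation ℤ L L, ∀ m ∈ pw L p, D m = 0 := fun D m hm => deriv_pw p D hm
  -- logarithmic derivatives of `X'`, `Y'`
  obtain ⟨a, ha, ha'⟩ := chain _ _ hX'
  obtain ⟨b, hb, hb'⟩ := chain _ _ hY'
  obtain ⟨c, hc, hc'⟩ := chain _ _ hZ
  obtain ⟨e, -, he'⟩ := chain _ _ hZ'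
  set A := a * X / X' with hAdef
  set B := b * Y / Y' with hBdef
  have hAg : A ∈ gen (pw L p) X := div_mem (mul_mem ha (self_mem_gen _ _)) hX'
  have hBg : B ∈ gen (pw L p) Y := div_mem (mul_mem hb (self_mem_gen _ _)) hY'
  have hA : D₁ X' = A * X' := by rw [ha' D₁ (hF _), h1X, hAdef]; field_simp
  have hB : D₂ Y' = B * Y' := by rw [hb' D₂ (hF _), h2Y, hBdef]; field_simp
  have hAF : A ∉ pw L p := by
    intro h
    obtain ⟨i, c, hc, -, hi⟩ := eigen p hX0 D₁ h1X hX' hX'0 h hA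
    have hc0 : c ≠ 0 := by
      rintro rfl
      exact hX'0 (by rw [hi, zero_mul])
    exact hnX i (by rw [hi, cl_pw_mul p hc hc0 (pow_ne_zero _ hX0), cl_pow p hX0])
  have hBF : B ∉ pw L p := by
    intro h
    obtain ⟨i, c, hc, -, hi⟩ := eigen p hY0 D₂ h2Y hY' hY'0 h hB
    have hc0 : c ≠ 0 := by
      rintro rfl
      exact hY'0 (by rw [hi, zero_mul])
    exact hnY i (by rw [hi, cl_pw_mul p hc hc0 (pow_ne_zero _ hY0), cl_pow p hY0])
  have h1Y0 : D₁ Y = 0 := h1Y _ (self_mem_gen _ _)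
  have h2X0 : D₂ X = 0 := h2X _ (self_mem_gen _ _)
  have h1Y' : D₁ Y' = 0 := h1Y _ hY'
  have h2X' : D₂ X' = 0 := h2X _ hX'
  set u := c * (X / Y) / (Z / Y) with hudef
  set v := e * (X' / Y') / (Z / Y') with hvdef
  have hug : u ∈ gen (pw L p) (X / Y) := div_mem (mul_mem hc (self_mem_gen _ _)) hZ
  have e1 : D₁ Z = u * Z := by
    have := hc' D₁ (hF _)
    rw [D₁.leibniz_div_const _ _ h1Y0, D₁.leibniz_div_const _ _ h1Y0, h1X] at this
    simp only [smul_eq_mul] at this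
    rw [hudef]
    field_simp at this ⊢
    linear_combination this
  have e2 : D₂ Z = (1 - u) * Z := by
    have := hc' D₂ (hF _)
    rw [D₂.leibniz_div, D₂.leibniz_div, h2Y, h2X0] at this
    simp only [smul_eq_mul] at this
    rw [hudef]
    field_simp at this ⊢
    linear_combination this
  have e3 : D₁ Z = v * A * Z := by
    have := he' D₁ (hF _)
    rw [D₁.leibniz_div_const _ _ h1Y', D₁.leibniz_div_const _ _ h1Y', hA] at this
    simp only [smul_eq_mul] at this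
    rw [hvdef]
    field_simp at this ⊢
    linear_combination this
  have e4 : D₂ Z = B * (1 - v) * Z := by
    have := he' D₂ (hF _)
    rw [D₂.leibniz_div, D₂.leibniz_div, hB, h2X'] at this
    simp only [smul_eq_mul] at this
    rw [hvdef]
    field_simp at this ⊢
    linear_combination this
  have e5 : u = v * A := mul_right_cancel₀ hZ0 (e1.symm.trans e3)
  have e6 : 1 - u = B * (1 - v) := mul_right_cancel₀ hZ0 (e2.symm.trans e4)
  have e7 : u * (B - A) = A * (B - 1) := by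
    linear_combination B * e5 + A * e6
  have hu0 : (D₁ + D₂) u = 0 := by
    obtain ⟨u', -, hu'⟩ := chain _ _ hug
    rw [hu' _ (hF _), Derivation.add_apply, D₁.leibniz_div, D₂.leibniz_div, h1X, h1Y0, h2Y, h2X0]
    simp only [smul_eq_mul]; ring
  have hDA : (D₁ + D₂) A = D₁ A := by rw [Derivation.add_apply, h2X _ hAg, add_zero]
  have hDB : (D₁ + D₂) B = D₂ B := by rw [Derivation.add_apply, h1Y _ hBg, zero_add]
  have e8 : u * (D₂ B - D₁ A) = A * D₂ B + (B - 1) * D₁ A := by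
    have := congrArg (D₁ + D₂) e7
    rw [Derivation.leibniz, Derivation.leibniz, Derivation.map_sub, Derivation.map_sub, hu0, hDA,
      hDB, Derivation.map_one_eq_zero] at this
    simp only [smul_eq_mul] at this
    linear_combination this
  have e9 : D₂ B * (A * (1 - A)) = D₁ A * (B * (1 - B)) := by
    linear_combination (D₂ B - D₁ A) * e7 - (B - A) * e8
  have hA0 : A ≠ 0 := ne_zero_of_notMem hAF
  have hA1 : 1 - A ≠ 0 := fun h => hAF (by rw [← sub_eq_zero.1 h]; exact one_mem _)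
  have hB0 : B ≠ 0 := ne_zero_of_notMem hBF
  have hB1 : 1 - B ≠ 0 := fun h => hBF (by rw [← sub_eq_zero.1 h]; exact one_mem _)
  set δ := D₁ A / (A * (1 - A)) with hδdef
  have hδ2 : δ = D₂ B / (B * (1 - B)) := by
    rw [hδdef, div_eq_div_iff (mul_ne_zero hA0 hA1) (mul_ne_zero hB0 hB1), e9]
  have hδX : δ ∈ gen (pw L p) X := by
    obtain ⟨a', ha1, ha2⟩ := chain _ _ hAg
    rw [hδdef, ha2 _ (hF _), h1X]
    exact div_mem (mul_mem ha1 (self_mem_gen _ _)) (mul_mem hAg (sub_mem (one_mem _) hAg))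
  have hδY : δ ∈ gen (pw L p) Y := by
    obtain ⟨a', ha1, ha2⟩ := chain _ _ hBg
    rw [hδ2, ha2 _ (hF _), h2Y]
    exact div_mem (mul_mem ha1 (self_mem_gen _ _)) (mul_mem hBg (sub_mem (one_mem _) hBg))
  have hδF : δ ∈ pw L p := mem_pw_of_deriv_eq_zero p hδX D₁ (by rwa [h1X]) (h1Y _ hδY)
  obtain ⟨i, hi, hi0, hW⟩ := single p hX hX' hX'0 D₁ h1X hA hAg hAF hδF
    (by rw [hδdef]; field_simp)
  obtain ⟨j, hj, -, W, hW1, hW2, hW3⟩ := single p hYF hY' hY'0 D₂ h2Y hB hBg hBF hδF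
    (by rw [hδ2]; field_simp)
  have hij : ∀ t : KOne L p, j • t = i • t := by
    intro t
    have h1 : ((j : ℕ) : ZMod p) = (i : ℕ) := by
      rw [ZMod.natCast_eq_natCast_iff, ← CharP.natCast_eq_natCast L p, ← hi, ← hj]
    exact (Nat.cast_smul_eq_nsmul (ZMod p) j t).symm.trans
      (h1 ▸ Nat.cast_smul_eq_nsmul (ZMod p) i t)
  exact ⟨i, hi0, hW, W, hW1, by rw [hW2, hij], by rw [hW3, hij]⟩

end Crest.Agent.R9
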