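import Mathlib
import Crest.Agent.R9.Trick

/-! A compatible map, suitably scaled, preserves lines. -/

set_option autoImplicit false

namespace Crest.Agent.R9

open Crest.NumberTheoryR.MilnorK

variable {K L : Type*} [Field K] [Field L] (p : ℕ) [hp : Fact p.Prime] [CharP K p] [CharP L p]

/-- `W` represents `a`, and `1 + W` represents `b`. -/
def Rep (a b : KOne L p) : Prop := ∃ W : L, W ∉ pw L p ∧ cl p W = a ∧ cl p (1 + W) = b

omit [CharP K p] in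
lemma rep_unique {a b : KOne L p} {i j : ZMod p} (hi : i ≠ 0) (hj : j ≠ 0)
    (h1 : Rep p (i • a) (i • b)) (h2 : Rep p (j • a) (j • b)) : i = j := by
  obtain ⟨W, hW, hW1, hW2⟩ := h1
  obtain ⟨V, hV, hV1, hV2⟩ := h2
  have := (rigid p hW (ne_zero_of_notMem hV) (ne_zero_of_notMem (one_add_notMem hV))
    (n := j / i) (div_ne_zero hj hi)
    (by rw [hV1, hW1, smul_smul, div_mul_cancel₀ _ hi])
    (by rw [hV2, hW2, smul_smul, div_mul_cancel₀ _ hi])).2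
  exact ((div_eq_one_iff_eq hi).1 this).symm

lemma notMem_of_rel (Θ : KOne K p ≃ₗ[ZMod p] KOne L p) {x : K} {X : L} (hx : x ∉ pw K p)
    (hX : X ≠ 0) (h : cl p X = Θ (cl p x)) : X ∉ pw L p := by
  intro h1
  rw [(cl_eq_zero_iff p hX).2 h1, eq_comm, map_eq_zero_iff Θ Θ.injective,
    cl_eq_zero_iff p (ne_zero_of_notMem hx)] at h
  exact hx h

omit [CharP L p] in
lemma cl_one_add_ne {x : K} (hx : x ∉ pw K p) (n : ℕ) : cl p (1 + x) ≠ n • cl p x := by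
  intro h
  have hx0 : x ≠ 0 := ne_zero_of_notMem hx
  have hx1 : 1 + x ≠ 0 := ne_zero_of_notMem (one_add_notMem hx)
  obtain ⟨D, -, hD⟩ := exists_euler p le_rfl hx
  have e := congrArg (dl p D) h
  rw [map_nsmul, dl_cl p _ hx0, dl_cl p _ hx1, D.map_add, D.map_one_eq_zero, hD, zero_add,
    div_self hx0, nsmul_eq_mul, mul_one] at e
  have h2 : (1 + x)⁻¹ = 1 - n := by rw [← e]; field_simp; ring
  apply one_add_notMem hx
  have h3 : (1 + x)⁻¹ ∈ pw K p := h2 ▸ sub_mem (one_mem _) (natCast_mem _ n)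
  simpa using inv_mem h3

lemma pair (Θ : KOne K p ≃ₗ[ZMod p] KOne L p)
    (hΘ : ∀ a b : KOne K p, TensorProduct.tmul (ZMod p) a b ∈ steinberg K p →
      TensorProduct.tmul (ZMod p) (Θ a) (Θ b) ∈ steinberg L p)
    {x y : K} (hx : x ∉ pw K p) (hy : y ∉ pw K p) {X Y : L} (hX0 : X ≠ 0)
    (hX : cl p X = Θ (cl p x)) (hY : cl p Y = Θ (cl p y)) (hXY : Y ∉ gen (pw L p) X) :
    ∃ i : ZMod p, i ≠ 0 ∧ Rep p (i • Θ (cl p x)) (i • Θ (cl p (1 + x))) ∧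
      Rep p (i • Θ (cl p y)) (i • Θ (cl p (1 + y))) := by
  have hY0 : Y ≠ 0 := ne_zero_of_notMem hXY
  have hx0 : x ≠ 0 := ne_zero_of_notMem hx
  have hy0 : y ≠ 0 := ne_zero_of_notMem hy
  have hx1 : 1 + x ≠ 0 := ne_zero_of_notMem (one_add_notMem hx)
  have hy1 : 1 + y ≠ 0 := ne_zero_of_notMem (one_add_notMem hy)
  have hXF : X ∉ pw L p := notMem_of_rel p Θ hx hX0 hX
  have hYF : Y ∉ pw L p := fun h => hXY (le_gen _ _ h)
  have hxy : x - y ≠ 0 := by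
    intro h
    rw [sub_eq_zero.1 h, ← hY, eq_comm, cl_eq_iff p hY0 hX0] at hX
    obtain ⟨e, he, -, rfl⟩ := hX
    exact hXY (mul_mem (le_gen _ _ he) (self_mem_gen _ _))
  obtain ⟨X', hX'0, hX'⟩ := exists_cl p (Θ (cl p (1 + x)))
  obtain ⟨Y', hY'0, hY'⟩ := exists_cl p (Θ (cl p (1 + y)))
  obtain ⟨Z, hZ0, hZ⟩ := exists_cl p (Θ (cl p (x - y)))
  have g1 : X' ∈ gen (pw L p) X := by
    apply mem_gen_of_steinberg p hXF hX'0
    rw [hX, hX']; exact hΘ _ _ (steinberg_one_add p hx0 hx1)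
  have g2 : Y' ∈ gen (pw L p) Y := by
    apply mem_gen_of_steinberg p hYF hY'0
    rw [hY, hY']; exact hΘ _ _ (steinberg_one_add p hy0 hy1)
  have hX'F : X' ∉ pw L p := notMem_of_rel p Θ (one_add_notMem hx) hX'0 hX'
  have hY'F : Y' ∉ pw L p := notMem_of_rel p Θ (one_add_notMem hy) hY'0 hY'
  have hsub : ∀ a b : KOne K p, Θ (a - b) = Θ a - Θ b := fun a b => Θ.map_sub a b
  have g3 : Z / Y ∈ gen (pw L p) (X / Y) := by
    apply mem_gen_of_steinberg p _ (div_ne_zero hZ0 hY0)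
    · rw [cl_div p hX0 hY0, cl_div p hZ0 hY0, hX, hY, hZ, ← hsub, ← hsub,
        ← cl_div p hx0 hy0, ← cl_div p hxy hy0]
      have : (x - y) / y = x / y - 1 := by field_simp
      rw [this]
      exact hΘ _ _ (steinberg_sub_one p (div_ne_zero hx0 hy0) (this ▸ div_ne_zero hxy hy0))
    · intro h
      apply hXY
      have : Y = (X / Y)⁻¹ * X := by field_simp
      rw [this]
      exact mul_mem (inv_mem (le_gen _ _ h)) (self_mem_gen _ _)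
  have g4 : Z / Y' ∈ gen (pw L p) (X' / Y') := by
    apply mem_gen_of_steinberg p _ (div_ne_zero hZ0 hY'0)
    · rw [cl_div p hX'0 hY'0, cl_div p hZ0 hY'0, hX', hY', hZ, ← hsub, ← hsub,
        ← cl_div p hx1 hy1, ← cl_div p hxy hy1]
      have : (x - y) / (1 + y) = (1 + x) / (1 + y) - 1 := by field_simp; ring
      rw [this]
      exact hΘ _ _ (steinberg_sub_one p (div_ne_zero hx1 hy1) (this ▸ div_ne_zero hxy hy1))
    · intro h
      apply hXY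
      have h1 : Y' ∈ gen (pw L p) X := by
        have : Y' = (X' / Y')⁻¹ * X' := by field_simp
        rw [this]
        exact mul_mem (inv_mem (le_gen _ _ h)) g1
      exact gen_le (le_gen _ _) h1 (exchange p le_rfl g2 hY'F)
  have n1 : ∀ n : ℕ, cl p X' ≠ n • cl p X := by
    intro n h
    rw [hX', hX, ← map_nsmul] at h
    exact cl_one_add_ne p hx n (Θ.injective h)
  have n2 : ∀ n : ℕ, cl p Y' ≠ n • cl p Y := by
    intro n h
    rw [hY', hY, ← map_nsmul] at h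
    exact cl_one_add_ne p hy n (Θ.injective h)
  obtain ⟨i, hi, ⟨W, hW, hW1, hW2⟩, ⟨V, hV, hV1, hV2⟩⟩ :=
    core p hXF hXY hX'0 hY'0 hZ0 g1 g2 g3 g4 n1 n2
  have hs : ∀ t : KOne L p, i • t = (i : ZMod p) • t := fun t =>
    (Nat.cast_smul_eq_nsmul (ZMod p) i t).symm
  refine ⟨(i : ZMod p), ?_, ⟨W, hW, ?_, ?_⟩, ⟨V, hV, ?_, ?_⟩⟩
  · intro h
    apply hi
    rw [ZMod.natCast_eq_zero_iff] at h
    exact (CharP.cast_eq_zero_iff L p i).2 h
  · rw [hW1, hs, hX]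
  · rw [hW2, hs, hX']
  · rw [hV1, hs, hY]
  · rw [hV2, hs, hY']

lemma exists_notMem_two {M N : Subfield L} (hM : ∃ x, x ∉ M) (hN : ∃ x, x ∉ N) :
    ∃ x, x ∉ M ∧ x ∉ N := by
  obtain ⟨a, ha⟩ := hM
  obtain ⟨b, hb⟩ := hN
  by_cases h1 : a ∈ N
  · by_cases h2 : b ∈ M
    · exact ⟨a + b, fun h => ha (by simpa using sub_mem h h2),
        fun h => hb (by simpa using sub_mem h h1)⟩
    · exact ⟨b, h2, hb⟩
  · exact ⟨a, ha, h1⟩

lemma exists_scalar (Θ : KOne K p ≃ₗ[ZMod p] KOne L p)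
    (hΘ : ∀ a b : KOne K p, TensorProduct.tmul (ZMod p) a b ∈ steinberg K p →
      TensorProduct.tmul (ZMod p) (Θ a) (Θ b) ∈ steinberg L p)
    (hL : ∀ X : L, ∃ Y, Y ∉ gen (pw L p) X) :
    ∃ δ : ZMod p, δ ≠ 0 ∧ ∀ x : K, x ∉ pw K p →
      Rep p (δ • Θ (cl p x)) (δ • Θ (cl p (1 + x))) := by
  have key : ∀ x₁ x₂ : K, x₁ ∉ pw K p → x₂ ∉ pw K p → ∃ i : ZMod p, i ≠ 0 ∧
      Rep p (i • Θ (cl p x₁)) (i • Θ (cl p (1 + x₁))) ∧
      Rep p (i • Θ (cl p x₂)) (i • Θ (cl p (1 + x₂))) := by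
    intro x₁ x₂ h₁ h₂
    obtain ⟨X₁, hX₁0, hX₁⟩ := exists_cl p (Θ (cl p x₁))
    obtain ⟨X₂, hX₂0, hX₂⟩ := exists_cl p (Θ (cl p x₂))
    obtain ⟨Y, hY₁, hY₂⟩ := exists_notMem_two (hL X₁) (hL X₂)
    obtain ⟨y, hy0, hy⟩ := exists_cl p (Θ.symm (cl p Y))
    have hyE : y ∉ pw K p := notMem_of_rel p Θ.symm (fun h => hY₁ (le_gen _ _ h)) hy0 hy
    have hY : cl p Y = Θ (cl p y) := by rw [hy, LinearEquiv.apply_symm_apply]
    obtain ⟨i, hi, hi1, hi2⟩ := pair p Θ hΘ h₁ hyE hX₁0 hX₁ hY hY₁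
    obtain ⟨j, hj, hj1, hj2⟩ := pair p Θ hΘ h₂ hyE hX₂0 hX₂ hY hY₂
    obtain rfl := rep_unique p hi hj hi2 hj2
    exact ⟨i, hi, hi1, hj1⟩
  by_cases h : ∃ x₀ : K, x₀ ∉ pw K p
  · obtain ⟨x₀, hx₀⟩ := h
    obtain ⟨δ, hδ, h1, -⟩ := key x₀ x₀ hx₀ hx₀
    refine ⟨δ, hδ, fun x hx => ?_⟩
    obtain ⟨i, hi, h2, h3⟩ := key x₀ x hx₀ hx
    obtain rfl := rep_unique p hδ hi h1 h2
    exact h3
  · exact ⟨1, one_ne_zero, fun x hx => (h ⟨x, hx⟩).elim⟩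

/-- Both `δ Θ` and its inverse preserve lines. -/
lemma exists_scalar₂ (Θ : KOne K p ≃ₗ[ZMod p] KOne L p) (hΘ : IsCompatible Θ)
    (hK : ∀ X : K, ∃ Y, Y ∉ gen (pw K p) X) (hL : ∀ X : L, ∃ Y, Y ∉ gen (pw L p) X) :
    ∃ δ : ZMod p, δ ≠ 0 ∧ (∀ x : K, x ∉ pw K p →
      Rep p (δ • Θ (cl p x)) (δ • Θ (cl p (1 + x)))) ∧ (∀ x : L, x ∉ pw L p →
      Rep p (δ⁻¹ • Θ.symm (cl p x)) (δ⁻¹ • Θ.symm (cl p (1 + x)))) := by
  have h1 : ∀ a b : KOne K p, TensorProduct.tmul (ZMod p) a b ∈ steinberg K p →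
      TensorProduct.tmul (ZMod p) (Θ a) (Θ b) ∈ steinberg L p := by
    intro a b h
    rw [← hΘ]
    exact ⟨_, h, by simp⟩
  have h2 : ∀ a b : KOne L p, TensorProduct.tmul (ZMod p) a b ∈ steinberg L p →
      TensorProduct.tmul (ZMod p) (Θ.symm a) (Θ.symm b) ∈ steinberg K p := by
    intro a b h
    rw [← hΘ] at h
    obtain ⟨t, ht, h⟩ := h
    have : t = TensorProduct.tmul (ZMod p) (Θ.symm a) (Θ.symm b) := by
      apply (TensorProduct.congr Θ Θ).injective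
      change TensorProduct.map Θ.toLinearMap Θ.toLinearMap t = _
      rw [h]; simp
    rwa [← this]
  obtain ⟨δ, hδ, hδ1⟩ := exists_scalar p Θ h1 hL
  obtain ⟨ε, hε, hε1⟩ := exists_scalar p Θ.symm h2 hK
  obtain ⟨x, hx⟩ := hK 0
  have hx' : x ∉ pw K p := fun h => hx (le_gen _ _ h)
  obtain ⟨W, hW, hW1, hW2⟩ := hδ1 x hx'
  obtain ⟨V, hV, hV1, hV2⟩ := hε1 W hW
  rw [hW1, map_smul, LinearEquiv.symm_apply_apply, smul_smul] at hV1
  rw [hW2, map_smul, LinearEquiv.symm_apply_apply, smul_smul] at hV2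
  have := (rigid p hx' (ne_zero_of_notMem hV) (ne_zero_of_notMem (one_add_notMem hV))
    (mul_ne_zero hε hδ) hV1 hV2).2
  obtain rfl : ε = δ⁻¹ := eq_inv_of_mul_eq_one_left this
  exact ⟨δ, hδ, hδ1, hε1⟩

end Crest.Agent.R9
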